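import Crest.Agent.R163.E2.Num
import Crest.Agent.R163.ADefs2

/-!
# R163/E3/Defs: a kernel checker for `Lane.V3` (many lanes at once)

Sorted vectors are `L = (N², x N, x r)`, `0 ≤ x, r ≤ N`.  On a cell `[x0,x1] × [r0,r1]` the vector `L` is a nonnegative combination of the four
vertices.  `M * 3 * F3` is written as (concave part) - (concave part bounded by tangent planes) - (convex part), and this concave minorant is
checked at the vertices, for all lanes simultaneously (96-bit lanes of big integers).  All values are scaled by `2^-112`.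
-/

set_option autoImplicit false

namespace Crest.Agent.R163.E3

open E2

/-! ### pair functions -/

noncomputable def fQ (x y : ℝ) : ℝ :=
  (x ^ (1 / 4 : ℝ) * y ^ (3 / 4 : ℝ) + x ^ (3 / 4 : ℝ) * y ^ (1 / 4 : ℝ)) / 2
noncomputable def fH (x y : ℝ) : ℝ := √(x * y)
noncomputable def fC (k : ℕ) (x y : ℝ) : ℝ :=
  √(x * y) * Real.cos ((k : ℝ) / 2 * (Real.log x - Real.log y))
noncomputable def Kf (sg : Bool) (k : ℕ) (x y : ℝ) : ℝ :=
  (1 + (k : ℝ) ^ 2) * fH x y + cond sg (fC k x y) (-fC k x y)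
/-- sum over the three pairs -/
noncomputable def prs (f : ℝ → ℝ → ℝ) (L : Vec 3) : ℝ := f (L 0) (L 1) + f (L 0) (L 2) + f (L 1) (L 2)
noncomputable def sS (L : Vec 3) : ℝ := L 0 + L 1 + L 2
noncomputable def gm (L : Vec 3) : ℝ := (L 0 * L 1 * L 2) ^ (1 / 3 : ℝ)
noncomputable def cC1 (L : Vec 3) : ℝ := (L 0 ^ 3 + L 1 ^ 3 + L 2 ^ 3) / sS L ^ 2
noncomputable def cC2 (L : Vec 3) : ℝ := (L 0 ^ 2 + L 1 ^ 2 + L 2 ^ 2) / sS L

structure Good2 (f : ℝ → ℝ → ℝ) : Prop where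
  nonneg : ∀ x y, 0 ≤ x → 0 ≤ y → 0 ≤ f x y
  add : ∀ x y x' y', 0 ≤ x → 0 ≤ y → 0 ≤ x' → 0 ≤ y' → f x y + f x' y' ≤ f (x + x') (y + y')
  smul : ∀ c x y, 0 ≤ c → 0 ≤ x → 0 ≤ y → f (c * x) (c * y) = c * f x y
  symm : ∀ x y, f x y = f y x

/-! ### the configuration and the normal form -/

structure Cf where
  cS : ℕ
  cL : ℕ
  M : ℕ
  mb : ℕ
  mT : ℕ
  m3 : ℕ
  m2 : ℕ

def cf50 : Cf := ⟨1, 1, 3840, 7680, 15360, 9, 2⟩
def cf45 : Cf := ⟨29, 27, 311040, 25600, 1536000, 729, 162⟩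

structure Cf.Ok (c : Cf) (t D : ℝ) : Prop where
  t_pos : 0 < t
  D_pos : 0 < D
  M_pos : 0 < c.M
  le : c.cL ≤ c.cS
  hS : (c.cS : ℝ) * 3 = (1 + t) * D
  hL : (c.cL : ℝ) = t * D
  hb : (c.mb : ℝ) * (t ^ 2 * D) = c.M
  hT : (c.mT : ℝ) * t ^ 2 = c.M
  h3 : c.m3 * 1280 = 3 * c.M
  h2 : c.m2 * 1920 = c.M

/-- `D • Pm (-t) L` -/
noncomputable def Cf.bv (c : Cf) (L : Vec 3) : Vec 3 := fun i => c.cS * sS L - c.cL * L i

structure Co where
  uQ : ℕ
  uH : ℕ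
  u1 : ℕ
  u2 : ℕ
  u3 : ℕ
  u4 : ℕ
  k1 : ℕ
  k2 : ℕ
  k3 : ℕ
  k4 : ℕ
  eG : ℕ
  nP : ℕ
  cP : ℕ
  kp : ℕ
  km : ℕ
  aQ : ℕ
  aH : ℕ
  wH : ℕ
  nM : ℕ
  cM : ℕ

def coefs (c : Cf) (p : LD × ℕ) : Co :=
  let l := p.1
  let n := p.2
  let Bp := 27 * l.b0 + 36 * l.b1 + 72 * l.b2 + 180 * l.b3 + 360 * l.b4 + 612 * l.b5 + 64 * l.np
  let Bm := 64 * l.nm
  let kp := c.m3 * n * (Bp - Bm)
  let km := c.m3 * n * (Bm - Bp)
  let hb := 2 * l.b2 + 5 * l.b3 + 10 * l.b4 + 17 * l.b5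
  let sp := c.M * (l.a0 + l.a1 + l.a2 + l.a3 + l.a4 + l.a5 + l.g) + c.mT * l.nm + c.m2 * n * Bp
  let sm := c.M * l.e + c.mT * (l.b0 + l.b1 + l.b2 + l.b3 + l.b4 + l.b5 + l.np) + c.m2 * n * Bm +
    2 * kp + km
  ⟨c.mb * l.b0, c.mb * (l.b1 - hb), c.mb * l.b2, c.mb * l.b3, c.mb * l.b4, c.mb * l.b5,
    c.M * l.a2, c.M * l.a3, c.M * l.a4, c.M * l.a5, 3 * c.M * l.e, 3 * c.mb * l.np, sp - sm, kp, km,
    c.M * l.a0, c.M * (l.a1 + 2 * l.a2 + 5 * l.a3 + 10 * l.a4 + 17 * l.a5), c.mb * (hb - l.b1),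
    c.mb * l.nm, sm - sp⟩

/-- the concave part evaluated at vertices -/
noncomputable def Co.vP (o : Co) (c : Cf) (L : Vec 3) : ℝ :=
  o.uQ * prs fQ (c.bv L) + o.uH * prs fH (c.bv L) + o.u1 * prs (Kf true 1) (c.bv L) +
    o.u2 * prs (Kf true 2) (c.bv L) + o.u3 * prs (Kf true 3) (c.bv L) + o.u4 * prs (Kf true 4) (c.bv L) +
    o.k1 * prs (Kf false 1) L + o.k2 * prs (Kf false 2) L + o.k3 * prs (Kf false 3) L +
    o.k4 * prs (Kf false 4) L + o.eG * gm L + o.nP * gm (c.bv L) + o.cP * sS L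
/-- the convex part evaluated at vertices -/
noncomputable def Co.vN (o : Co) (L : Vec 3) : ℝ := o.km * cC1 L + o.kp * cC2 L + o.cM * sS L
/-- `M * 3 * F3` -/
noncomputable def Co.nf (o : Co) (c : Cf) (L : Vec 3) : ℝ :=
  o.vP c L + o.kp * (cC1 L + 2 * sS L) + o.km * (cC2 L + sS L) - o.vN L -
    (o.aQ * prs fQ L + o.aH * prs fH L + o.wH * prs fH (c.bv L) + o.nM * (3 * gm (c.bv L)))

/-! ### tables of `Kf sg k 1 ((m/1024)²)` -/

inductive Tb where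
  | lf (c : ℕ) : Tb
  | nd (h : ℕ) (l r : Tb) : Tb

def m768 : ℕ := 1552518092300708935148979488462502555256886017116696611139052038026050952686376886330878408828646477950487730697131073206171580044114814391444287275041181139204454976020849905550265285631598444825262999193716468750892846853816057855
def m384 : ℕ := 39402006196394479212279040100143613805079739270465446667948293404245721771497210611414266254884915640806627990306815

/-- the entries `m` and `m + 1` (four 96-bit lanes each) -/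
noncomputable def lookT (T : Tb) : ℕ → ℕ :=
  Tb.rec (fun c m => Nat.land (Nat.shiftRight c (Nat.mul 384 m)) m768)
    (fun h _ _ il ir m => Bool.rec (il m) (ir (Nat.sub m h)) (Nat.ble h m)) T

/-- lane `i` of a packed number -/
def lane (A i : ℕ) : ℕ := A / 2 ^ (96 * i) % 2 ^ 96

def TabOK (sg : Bool) (T : Tb) : Prop :=
  ∀ m < 1024, ∀ j < 2, ∀ k < 4, lane (lookT T m) (4 * j + k) < 2 ^ 44 ∧
    (lane (lookT T m) (4 * j + k) : ℝ) ≤ 2 ^ 36 * Kf sg (k + 1) 1 ((((m + j : ℕ) : ℝ) / 1024) ^ 2)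

def minN (a b : ℕ) : ℕ := Bool.rec b a (Nat.ble a b)

/-- packed lower bounds for `2^36 Kf sg k x y`, `x, y < 2^48`; `sx, sy` are hints (`sy/sx ≈ √(y/x)`) -/
noncomputable def chord (T : Tb) (x y sx sy : ℕ) : ℕ :=
  force (minN (Nat.div (Nat.mul sy 1099511626752) (Nat.shiftLeft sx 30)) 1023) fun m =>
  force (Nat.mul x (Nat.mul m m)) fun xm => force (Nat.shiftLeft y 20) fun y' =>
  Bool.rec 0
    (force (minN (Nat.div (Nat.sub y' xm) (Nat.succ (Nat.add m m))) x) fun l2 =>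
      force (lookT T m) fun E =>
      Nat.add (Nat.mul (Nat.sub x l2) (Nat.land E m384)) (Nat.mul l2 (Nat.shiftRight E 384)))
    (Nat.ble xm y')

/-- `(x / 2^104) mod 2^48` -/
def clamp (x : ℕ) : ℕ := Nat.land (Nat.shiftRight x 104) 281474976710655

/-- lane `j` divided by `2^44`; `s = 96 j + 44` -/
def unp (A s : ℕ) : ℕ := Nat.land (Nat.shiftRight A s) 4503599627370495

/-! ### roots -/

def step4 (b q : ℕ) : ℕ := Nat.shiftRight (Nat.add (Nat.mul 3 q) (Nat.div b (Nat.pow q 3))) 2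
def step3 (b q : ℕ) : ℕ := Nat.div (Nat.add (Nat.mul 2 q) (Nat.div b (Nat.mul q q))) 3

noncomputable def newt (st : ℕ → ℕ) : ℕ → ℕ :=
  Nat.rec (fun q => q)
    (fun _ ih q => force (st q) fun q' => Bool.rec (ih q') q' (Nat.ble q (Nat.add q' 256))) 100

/-- `q` if `q^k ≤ b`, else `0` -/
def chkR (k b q : ℕ) : ℕ := Bool.rec 0 q (Nat.ble (Nat.pow q k) b)

noncomputable def root4 (b g : ℕ) : ℕ :=
  force (step4 b g) fun q0 => force (Nat.sub (newt (step4 b) q0) 2) fun q => chkR 4 b q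
noncomputable def root3 (b g : ℕ) : ℕ :=
  force (step3 b g) fun q0 => force (Nat.sub (newt (step3 b) q0) 2) fun q => chkR 3 b q

/-! ### packing -/

def nN : ℕ := 4722366482869645213603
def n2 : ℕ := 22300745198530623140657358106834607496241609
def p95 : ℕ := 39614081257132168796771975168
def p120 : ℕ := 1329227995784915872903807060280344576
def a0c : ℕ := 1152921504606846883

noncomputable def maxL (f : Co → ℕ) (cs : List Co) : ℕ :=
  List.rec 0 (fun c _ ih => force (f c) fun a => force ih fun b => Bool.rec a b (Nat.ble a b)) cs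
/-- the value of the junk lane `0` and of the guard lane `length + 1` -/
noncomputable def topL (f : Co → ℕ) (cs : List Co) : ℕ := Nat.add (maxL f cs) 2654435761
noncomputable def pack (f : Co → ℕ) (cs : List Co) : ℕ :=
  force (topL f cs) fun top =>
    Nat.add top (Nat.shiftLeft (List.rec top (fun c _ ih => Nat.add (f c) (Nat.shiftLeft ih 96)) cs) 96)
/-- `∑_{a ≤ i < b} 2^(96 i + 95)` -/
noncomputable def hiM (a b : ℕ) : ℕ :=
  Nat.shiftLeft (Nat.rec 0 (fun _ ih => Nat.add p95 (Nat.shiftLeft ih 96)) (Nat.sub b a)) (Nat.mul 96 a)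

structure Pre where
  cS : ℕ
  cL : ℕ
  tP : Tb
  tM : Tb
  o : Co
  HI : ℕ
  BD : ℕ
  mA : ℕ
  mL : ℕ

noncomputable def mkPre {α : Type} (c : Cf) (tP tM : Tb) (ls : List (LD × ℕ)) (nD : ℕ) (k : Pre → α) : α :=
  (fun cs : List Co =>
  force (pack Co.uQ cs) fun uQ => force (pack Co.uH cs) fun uH => force (pack Co.u1 cs) fun u1 =>
  force (pack Co.u2 cs) fun u2 => force (pack Co.u3 cs) fun u3 => force (pack Co.u4 cs) fun u4 =>
  force (pack Co.k1 cs) fun k1 => force (pack Co.k2 cs) fun k2 => force (pack Co.k3 cs) fun k3 =>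
  force (pack Co.k4 cs) fun k4 => force (pack Co.eG cs) fun eG => force (pack Co.nP cs) fun nP =>
  force (pack Co.cP cs) fun cP => force (pack Co.kp cs) fun kp => force (pack Co.km cs) fun km =>
  force (pack Co.aQ cs) fun aQ => force (pack Co.aH cs) fun aH => force (pack Co.wH cs) fun wH =>
  force (pack Co.nM cs) fun nM => force (pack Co.cM cs) fun cM => force cs.length fun W =>
  force (hiM 0 (W + 2)) fun HI => force (Nat.pow 2 (96 * (W + 1) + 95)) fun BD =>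
  force (hiM 1 (W + 1)) fun mA => force (hiM (nD + 1) (W + 1)) fun mL =>
  force c.cS fun cS => force c.cL fun cL =>
  k ⟨cS, cL, tP, tM, ⟨uQ, uH, u1, u2, u3, u4, k1, k2, k3, k4, eG, nP, cP, kp, km, aQ, aH, wH, nM, cM⟩,
    HI, BD, mA, mL⟩) (ls.map (coefs c))

/-! ### vertices -/

structure Vx where
  X : ℕ
  R : ℕ
  x : ℕ
  r : ℕ
  L1 : ℕ
  L2 : ℕ
  b0 : ℕ
  b1 : ℕ
  b2 : ℕ
  a1 : ℕ
  a2 : ℕ
  q0 : ℕ
  q1 : ℕ
  q2 : ℕ
  g : ℕ
  P : ℕ
  Q : ℕ

/-- `⌈N (X / 2^16)^12⌉` -/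
def up (X : ℕ) : ℕ :=
  Nat.shiftRight (Nat.add (Nat.mul nN (Nat.pow X 12))
    6277101735386680763835789423207666416102355444464034512895) 192

/-- lower bounds for `prs fQ b` and `prs fH b` from lower bounds of the fourth roots -/
def phiQ (q0 q1 q2 s0 s1 s2 : ℕ) : ℕ :=
  Nat.shiftRight (Nat.add (Nat.add (Nat.mul (Nat.mul q0 q1) (Nat.add s0 s1))
    (Nat.mul (Nat.mul q0 q2) (Nat.add s0 s2))) (Nat.mul (Nat.mul q1 q2) (Nat.add s1 s2))) 113
def phiH (s0 s1 s2 : ℕ) : ℕ :=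
  Nat.shiftRight (Nat.add (Nat.mul s0 (Nat.add s1 s2)) (Nat.mul s1 s2)) 112

/-- `∑_k u_k * (lane k of A) / 2^44` -/
def dot4 (u1 u2 u3 u4 A : ℕ) : ℕ :=
  Nat.add (Nat.add (Nat.mul u1 (unp A 44)) (Nat.mul u2 (unp A 140)))
    (Nat.add (Nat.mul u3 (unp A 236)) (Nat.mul u4 (unp A 332)))

/-- the vertex `(x, r)`; `X, R` and the guesses `h0 h1 h2 hg` are hints -/
noncomputable def mkV {α : Type} (p : Pre) (X R x r h0 h1 h2 hg : ℕ) (k : Vx → α) : α :=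
  force (Nat.mul x nN) fun L1 => force (Nat.mul x r) fun L2 =>
  force (Nat.add (Nat.add n2 L1) L2) fun S => force (Nat.mul p.cS S) fun cs =>
  force (Nat.sub cs (Nat.mul p.cL n2)) fun b0 => force (Nat.sub cs (Nat.mul p.cL L1)) fun b1 =>
  force (Nat.sub cs (Nat.mul p.cL L2)) fun b2 =>
  force (Nat.shiftRight (Nat.mul a0c (Nat.pow X 3)) 48) fun a1 =>
  force (Nat.shiftRight (Nat.mul a1 (Nat.pow R 3)) 48) fun a2 =>
  force (root4 b0 h0) fun q0 => force (root4 b1 h1) fun q1 => force (root4 b2 h2) fun q2 =>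
  force (root3 (Nat.shiftRight (Nat.mul (Nat.mul b0 b1) b2) 324) hg) fun g =>
  force (Nat.shiftRight (Nat.mul n2 (Nat.pow (Nat.mul (Nat.mul X X) R) 4)) 300) fun gL =>
  force (Nat.mul q0 q0) fun s0 => force (Nat.mul q1 q1) fun s1 => force (Nat.mul q2 q2) fun s2 =>
  force (Nat.mul a0c a0c) fun t0 => force (Nat.mul a1 a1) fun t1 => force (Nat.mul a2 a2) fun t2 =>
  force (clamp b0) fun c0 => force (clamp b1) fun c1 => force (clamp b2) fun c2 =>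
  force (clamp n2) fun d0 => force (clamp L1) fun d1 => force (clamp L2) fun d2 =>
  force (Nat.add (Nat.add (chord p.tP c1 c0 s1 s0) (chord p.tP c2 c0 s2 s0)) (chord p.tP c2 c1 s2 s1))
    fun AP =>
  force (Nat.add (Nat.add (chord p.tM d0 d1 t0 t1) (chord p.tM d0 d2 t0 t2)) (chord p.tM d1 d2 t1 t2))
    fun AM =>
  force (Nat.shiftRight S 112) fun Sl =>
  force (Nat.add
    (Nat.add (Nat.add (Nat.mul p.o.uQ (phiQ q0 q1 q2 s0 s1 s2)) (Nat.mul p.o.uH (phiH s0 s1 s2)))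
      (Nat.add (dot4 p.o.u1 p.o.u2 p.o.u3 p.o.u4 AP) (dot4 p.o.k1 p.o.k2 p.o.k3 p.o.k4 AM)))
    (Nat.add (Nat.add (Nat.mul p.o.eG (Nat.shiftRight
        (chkR 3 (Nat.shiftRight (Nat.mul (Nat.mul n2 L1) L2) 324) gL) 4))
      (Nat.mul p.o.nP (Nat.shiftRight g 4))) (Nat.mul p.o.cP Sl))) fun P =>
  force (Nat.add (Nat.add
      (Nat.mul p.o.km (Nat.succ (Nat.div (Nat.add (Nat.add (Nat.pow n2 3) (Nat.pow L1 3)) (Nat.pow L2 3))
        (Nat.shiftLeft (Nat.mul S S) 112))))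
      (Nat.mul p.o.kp (Nat.succ (Nat.div (Nat.add (Nat.add (Nat.mul n2 n2) (Nat.mul L1 L1)) (Nat.mul L2 L2))
        (Nat.shiftLeft S 112)))))
    (Nat.mul p.o.cM (Nat.succ Sl))) fun Q =>
  k ⟨X, R, x, r, L1, L2, b0, b1, b2, a1, a2, q0, q1, q2, g, P, Q⟩

/-- mean of two hints -/
def mid (a b : ℕ) : ℕ := Nat.succ (Nat.shiftRight (Nat.add a b) 1)

/-- a new vertex between `u` and `v` -/
noncomputable def mkM {α : Type} (p : Pre) (X R x r : ℕ) (u v : Vx) (k : Vx → α) : α :=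
  force (mid u.q0 v.q0) fun h0 => force (mid u.q1 v.q1) fun h1 => force (mid u.q2 v.q2) fun h2 =>
  force (mid u.g v.g) fun hg => mkV p X R x r h0 h1 h2 hg k

/-! ### leaves -/

/-- tangent coefficient of `prs fH` (scale `2^40`) -/
def tH (si sk sl : ℕ) : ℕ := Nat.succ (Nat.div (Nat.shiftLeft (Nat.add sk sl) 39) si)
/-- tangent coefficient of `prs fQ` (scale `2^40`); `s = a²`, `c = a³` -/
def tQ (si ci ak al ck cl : ℕ) : ℕ :=
  Nat.succ (Nat.div (Nat.shiftLeft (Nat.add (Nat.add ck cl) (Nat.mul (Nat.mul 3 (Nat.add ak al)) si)) 37) ci)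
def lin3 (c0 c1 c2 x0 x1 x2 s : ℕ) : ℕ :=
  Nat.shiftRight (Nat.add (Nat.add (Nat.mul c0 x0) (Nat.mul c1 x1)) (Nat.mul c2 x2)) s

structure Tg where
  Q0 : ℕ
  Q1 : ℕ
  Q2 : ℕ
  H0 : ℕ
  H1 : ℕ
  H2 : ℕ
  B0 : ℕ
  B1 : ℕ
  B2 : ℕ
  G0 : ℕ
  G1 : ℕ
  G2 : ℕ
  C0 : ℕ
  C1 : ℕ
  C2 : ℕ
  D0 : ℕ
  D1 : ℕ
  D2 : ℕ

noncomputable def mkT {α : Type} (u v : Vx) (k : Tg → α) : α :=
  force (Nat.add a0c a0c) fun a0 => force (Nat.succ (Nat.add u.a1 v.a1)) fun a1 =>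
  force (Nat.succ (Nat.add u.a2 v.a2)) fun a2 =>
  force (Nat.mul a0 a0) fun s0 => force (Nat.mul a1 a1) fun s1 => force (Nat.mul a2 a2) fun s2 =>
  force (Nat.mul a0 s0) fun c0 => force (Nat.mul a1 s1) fun c1 => force (Nat.mul a2 s2) fun c2 =>
  force (tQ s0 c0 a1 a2 c1 c2) fun Q0 => force (tQ s1 c1 a0 a2 c0 c2) fun Q1 =>
  force (tQ s2 c2 a0 a1 c0 c1) fun Q2 =>
  force (tH s0 s1 s2) fun H0 => force (tH s1 s0 s2) fun H1 => force (tH s2 s0 s1) fun H2 =>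
  force (Nat.pow (Nat.succ (Nat.add u.q0 v.q0)) 2) fun e0 =>
  force (Nat.pow (Nat.succ (Nat.add u.q1 v.q1)) 2) fun e1 =>
  force (Nat.pow (Nat.succ (Nat.add u.q2 v.q2)) 2) fun e2 =>
  force (tH e0 e1 e2) fun B0 => force (tH e1 e0 e2) fun B1 => force (tH e2 e0 e1) fun B2 =>
  force (Nat.shiftLeft (Nat.add u.g v.g) 148) fun g =>
  force (Nat.succ (Nat.div g (Nat.add u.b0 v.b0))) fun G0 =>
  force (Nat.succ (Nat.div g (Nat.add u.b1 v.b1))) fun G1 =>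
  force (Nat.succ (Nat.div p120 (Nat.mul G0 G1))) fun G2 =>
  force (Nat.add u.L1 v.L1) fun y1 => force (Nat.add u.L2 v.L2) fun y2 =>
  force (Nat.add (Nat.add (Nat.add n2 n2) y1) y2) fun S =>
  force (Nat.div (Nat.shiftLeft n2 41) S) fun l0 => force (Nat.div (Nat.shiftLeft y1 40) S) fun l1 =>
  force (Nat.div (Nat.shiftLeft y2 40) S) fun l2 =>
  force (Nat.mul l0 l0) fun m0 => force (Nat.mul l1 l1) fun m1 => force (Nat.mul l2 l2) fun m2 =>
  force (Nat.mul 2 (Nat.sub p120 (Nat.add (Nat.add (Nat.mul l0 m0) (Nat.mul l1 m1)) (Nat.mul l2 m2))))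
    fun z3 =>
  force (Nat.sub 1208925819614629174706176 (Nat.add (Nat.add m0 m1) m2)) fun z2 =>
  force (Nat.add (Nat.mul 3298534883328 m0) z3) fun C0 =>
  force (Nat.add (Nat.mul 3298534883328 m1) z3) fun C1 =>
  force (Nat.add (Nat.mul 3298534883328 m2) z3) fun C2 =>
  force (Nat.add (Nat.shiftLeft l0 41) z2) fun D0 => force (Nat.add (Nat.shiftLeft l1 41) z2) fun D1 =>
  force (Nat.add (Nat.shiftLeft l2 41) z2) fun D2 =>
  k ⟨Q0, Q1, Q2, H0, H1, H2, B0, B1, B2, G0, G1, G2, C0, C1, C2, D0, D1, D2⟩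

/-- lanewise comparison `B ≤ A` on the lanes of the mask -/
def cmpL (HI BD mask A B : ℕ) : Bool :=
  and (and (Nat.blt A BD) (Nat.blt B BD))
    (Nat.beq (Nat.land (Nat.sub (Nat.add A HI) B) mask) mask)

noncomputable def vchk (p : Pre) (t : Tg) (mask : ℕ) (v : Vx) : Bool :=
  force (Nat.add v.P (Nat.add (Nat.mul p.o.kp (lin3 t.C0 t.C1 t.C2 n2 v.L1 v.L2 232))
    (Nat.mul p.o.km (lin3 t.D0 t.D1 t.D2 n2 v.L1 v.L2 192)))) fun A =>
  force (Nat.add v.Q (Nat.add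
    (Nat.add (Nat.mul p.o.aQ (Nat.succ (lin3 t.Q0 t.Q1 t.Q2 n2 v.L1 v.L2 152)))
      (Nat.mul p.o.aH (Nat.succ (lin3 t.H0 t.H1 t.H2 n2 v.L1 v.L2 152))))
    (Nat.add (Nat.mul p.o.wH (Nat.succ (lin3 t.B0 t.B1 t.B2 v.b0 v.b1 v.b2 152)))
      (Nat.mul p.o.nM (Nat.succ (lin3 t.G0 t.G1 t.G2 v.b0 v.b1 v.b2 152)))))) fun B =>
  cmpL p.HI p.BD mask A B

/-- `v00 = (x0, r0)`, `v01 = (x0, r1)`, `v10 = (x1, r0)`, `v11 = (x1, r1)` -/
noncomputable def leaf (p : Pre) (v00 v01 v10 v11 : Vx) : Bool :=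
  force (Bool.rec p.mA p.mL (Nat.ble (Nat.mul 3 n2) (Nat.mul 4 v00.L2))) fun mask =>
  mkT v00 v11 fun t =>
    and (and (vchk p t mask v00) (vchk p t mask v01)) (and (vchk p t mask v10) (vchk p t mask v11))

inductive Tr where
  | z : Tr
  | x (l r : Tr) : Tr
  | y (l r : Tr) : Tr

noncomputable def run (p : Pre) (tr : Tr) : Vx → Vx → Vx → Vx → Bool :=
  Tr.rec (fun v00 v01 v10 v11 => leaf p v00 v01 v10 v11)
    (fun _ _ il ir v00 v01 v10 v11 =>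
      force (Nat.shiftRight (Nat.add v00.X v10.X) 1) fun X => force (up X) fun x =>
      mkM p X v00.R x v00.r v00 v10 fun w0 => mkM p X v01.R x v01.r v01 v11 fun w1 =>
      and (il v00 v01 w0 w1) (ir w0 w1 v10 v11))
    (fun _ _ il ir v00 v01 v10 v11 =>
      force (Nat.shiftRight (Nat.add v00.R v01.R) 1) fun R => force (up R) fun r =>
      mkM p v00.X R v00.x r v00 v01 fun w0 => mkM p v10.X R v10.x r v10 v11 fun w1 =>
      and (il v00 w0 v10 w1) (ir w0 v01 w1 v11)) tr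

def h38 : ℕ := 549755813888

noncomputable def chk (c : Cf) (tP tM : Tb) (ls : List (LD × ℕ)) (nD X0 X1 R0 R1 : ℕ) (tr : Tr) : Bool :=
  mkPre c tP tM ls nD fun p =>
  force (up X0) fun x0 => force (up X1) fun x1 => force (up R0) fun r0 => force (up R1) fun r1 =>
  mkV p X0 R0 x0 r0 h38 h38 h38 (Nat.mul 64 h38) fun v00 =>
  mkV p X0 R1 x0 r1 h38 h38 h38 (Nat.mul 64 h38) fun v01 =>
  mkV p X1 R0 x1 r0 h38 h38 h38 (Nat.mul 64 h38) fun v10 =>
  mkV p X1 R1 x1 r1 h38 h38 h38 (Nat.mul 64 h38) fun v11 => run p tr v00 v01 v10 v11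

/-- the vector with coordinates `(x, r)` -/
noncomputable def vec (x r : ℝ) : Vec 3 := ![(n2 : ℝ), x * nN, x * r]

/-- the conclusion on a cell -/
def HoldsR (t : ℝ) (ls : List (LD × ℕ)) (nD : ℕ) (x0 x1 r0 r1 : ℕ) : Prop :=
  ∀ x r : ℝ, (x0 : ℝ) ≤ x → x ≤ x1 → (r0 : ℝ) ≤ r → r ≤ r1 → ∀ (i : ℕ) (hi : i < ls.length),
    (i < nD ∧ 3 * (n2 : ℝ) ≤ 4 * (x * r)) ∨
      0 ≤ ls[i].1.toLane.F3 t ((ls[i].2 : ℝ) / 20) (vec x r)
def Holds (t : ℝ) (ls : List (LD × ℕ)) (nD X0 X1 R0 R1 : ℕ) : Prop :=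
  HoldsR t ls nD (up X0) (up X1) (up R0) (up R1)

end Crest.Agent.R163.E3
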